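import Vale.Agent.P245.M8.Pieces

/-!
# P245, M8: Gaussian concentration gives log-Sobolev for log-concave measures
-/

namespace Vale.Agent.P245.M8

open MeasureTheory ProbabilityTheory Real

variable {n : ℕ}

theorem bracket_nonneg {w V : ℝ} (hw : 0 ≤ w) (hV : 0 < V) :
    0 ≤ w * log w - w * log V + V := by
  rcases hw.eq_or_lt with rfl | hw
  · simpa using hV.le
  · have h := one_sub_inv_le_log_of_pos (div_pos hw hV)
    rw [log_div hw.ne' hV.ne', inv_div] at h
    have h2 := mul_le_mul_of_nonneg_left h hw.le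
    rw [mul_sub, mul_one, mul_div_cancel₀ _ hw.ne'] at h2
    nlinarith

theorem rothaus_point {m u V : ℝ} (hV : 0 < V) :
    (m + u) ^ 2 * log ((m + u) ^ 2) - (m + u) ^ 2 * log (m ^ 2 + V) - (m + u) ^ 2 + (m ^ 2 + V)
      ≤ 4 * (u ^ 2 * log (u ^ 2) - u ^ 2 * log V + V) + 25 * u ^ 2 + 2 * V := by
  set c := m ^ 2 + V with hcdef
  have hc : 0 < c := by positivity
  have hb := bracket_nonneg (sq_nonneg u) hV
  rcases (sq_nonneg (m + u)).eq_or_lt with h0 | h0
  · rw [← h0]
    have h1 : m ^ 2 = u ^ 2 := by nlinarith [sq_eq_zero_iff.1 h0.symm]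
    simp only [zero_mul, sub_zero, zero_add]
    nlinarith [sq_nonneg u]
  have e : (m + u) ^ 2 * log ((m + u) ^ 2) - (m + u) ^ 2 * log c
      = (m + u) ^ 2 * log ((m + u) ^ 2 / c) := by
    rw [log_div h0.ne' hc.ne']; ring
  rw [e]
  set a := (m + u) ^ 2 with hadef
  rcases le_or_gt (u ^ 2) c with hu | hu
  · have h1 : a * log (a / c) ≤ a * (a / c - 1) :=
      mul_le_mul_of_nonneg_left (log_le_sub_one_of_pos (div_pos h0 hc)) h0.le
    have h2 : a * (a / c - 1) - a + c = (a - c) ^ 2 / c := by field_simp; ring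
    have h3 : (a - c) ^ 2 / c ≤ 18 * u ^ 2 + 2 * V := by
      rw [div_le_iff₀ hc, show a - c = 2 * m * u + u ^ 2 - V by rw [hadef, hcdef]; ring]
      have hm : m ^ 2 ≤ c := by rw [hcdef]; linarith
      have hVc : V ≤ c := by rw [hcdef]; nlinarith
      nlinarith [mul_le_mul_of_nonneg_right hm (sq_nonneg u), mul_le_mul_of_nonneg_left hu (sq_nonneg u),
        mul_le_mul_of_nonneg_left hVc hV.le, sq_nonneg (2 * m * u - u ^ 2), sq_nonneg (2 * m * u + u ^ 2 + V)]
    nlinarith [sq_nonneg u]
  · have hu0 : 0 < u ^ 2 := hc.trans hu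
    have ha : a ≤ 4 * u ^ 2 := by nlinarith [sq_nonneg (m - u)]
    have h4 : log 4 ≤ 3 := (log_le_sub_one_of_pos (by norm_num)).trans_eq (by norm_num)
    have hl4 : (0 : ℝ) ≤ log 4 := log_nonneg (by norm_num)
    have hl : log (a / c) ≤ log 4 + (log (u ^ 2) - log c) := by
      rw [← log_div hu0.ne' hc.ne', ← log_mul (by norm_num) (div_pos hu0 hc).ne']
      refine log_le_log (div_pos h0 hc) ?_
      rw [mul_div_assoc']
      gcongr
    have hy : 0 ≤ log 4 + (log (u ^ 2) - log c) := by
      linarith [log_le_log hc hu.le]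
    have h5 : a * log (a / c) ≤ 4 * u ^ 2 * (log 4 + (log (u ^ 2) - log c)) :=
      (mul_le_mul_of_nonneg_left hl h0.le).trans (mul_le_mul_of_nonneg_right ha hy)
    have h6 : log V ≤ log c := log_le_log hV (by rw [hcdef]; nlinarith)
    have h7 := mul_le_mul_of_nonneg_left h6 (sq_nonneg u)
    have h8 := mul_le_mul_of_nonneg_left h4 (sq_nonneg u)
    nlinarith

/-- Rothaus' lemma, with non-optimal constants. -/
theorem rothaus {μ : Measure (Rn n)} [IsProbabilityMeasure μ] {f : Rn n → ℝ} (hf : BM f)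
    (hV : 0 < vr μ f) :
    entropy μ (fun x => f x ^ 2)
      ≤ 4 * entropy μ (fun x => (f x - ∫ y, f y ∂μ) ^ 2) + 31 * vr μ f := by
  set m := ∫ y, f y ∂μ
  set V := vr μ f with hVdef
  have hu : BM fun x => f x - m := hf.sub (BM.const m)
  have hVe : ∫ x, (f x - m) ^ 2 ∂μ = V := rfl
  have hc : ∫ x, f x ^ 2 ∂μ = m ^ 2 + V := by
    rw [← hVe, show (fun x => (f x - m) ^ 2) = fun x => f x ^ 2 - 2 * m * f x + m ^ 2 from
      funext fun x => by ring]
    rw [integral_add (f := fun x => f x ^ 2 - 2 * m * f x)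
      ((hf.sq.integrable μ).sub ((hf.integrable μ).const_mul _)) (integrable_const _),
      integral_sub (hf.sq.integrable μ) ((hf.integrable μ).const_mul _), integral_const_mul,
      integral_const, probReal_univ, one_smul]
    show _ = m ^ 2 + (_ - 2 * m * m + m ^ 2)
    ring
  have i1 := hf.sq.integrable μ
  have i2 := (hf.sq.cont_comp Real.continuous_mul_log).integrable μ
  have i3 := hu.sq.integrable μ
  have i4 := (hu.sq.cont_comp Real.continuous_mul_log).integrable μ
  have key : ∀ x, f x ^ 2 * log (f x ^ 2) - (log (m ^ 2 + V) + 1) * f x ^ 2 + (m ^ 2 + V)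
      ≤ 4 * ((f x - m) ^ 2 * log ((f x - m) ^ 2)) + (25 - 4 * log V) * (f x - m) ^ 2 + 6 * V :=
    fun x => by
      have h := rothaus_point (m := m) (u := f x - m) hV
      rw [add_sub_cancel] at h
      linarith
  have j1 : Integrable (fun x => f x ^ 2 * log (f x ^ 2) - (log (m ^ 2 + V) + 1) * f x ^ 2) μ :=
    i2.sub (i1.const_mul _)
  have j2 : Integrable (fun x => 4 * ((f x - m) ^ 2 * log ((f x - m) ^ 2))
      + (25 - 4 * log V) * (f x - m) ^ 2) μ := (i4.const_mul 4).add (i3.const_mul _)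
  have h := integral_mono (j1.add (integrable_const (m ^ 2 + V)))
    (j2.add (integrable_const (6 * V))) key
  simp only [Pi.add_apply] at h
  rw [integral_add j1 (integrable_const _), integral_add j2 (integrable_const _),
    integral_sub i2 (i1.const_mul _), integral_add (i4.const_mul 4) (i3.const_mul _),
    integral_const_mul, integral_const_mul, integral_const_mul, integral_const, integral_const,
    probReal_univ, one_smul, one_smul, hc, hVe] at h
  simp only [entropy, hc, hVe]
  linarith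

theorem test_sub_const {f : Rn n → ℝ} (hf : Test f) (c : ℝ) : Test fun x => f x - c := by
  simpa only [sub_eq_add_neg] using test_add_const hf (-c)

theorem energy_sub_const (μ : Measure (Rn n)) (f : Rn n → ℝ) (c : ℝ) :
    energy μ (fun x => f x - c) = energy μ f := by
  simp only [energy, fderiv_sub_const]

/-- M8. -/
theorem lsiOfConc_of (hmix : Mixture) (htilt : TiltSLC) (hlsi : LsiSLC) (hpc : PoincareSLC)
    (hap : TestApprox) : LsiOfConc := by
  intro C₀ hC₀
  have hC1 : 0 < expC C₀ := expC_pos hC₀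
  set C₁ := expC C₀
  set M := max 4 (32 * Real.sqrt C₁)
  have hM : 0 < M := lt_of_lt_of_le (by norm_num) (le_max_left _ _)
  set c := min (1 / 4) (1 / (4096 * M ^ 2 * C₁))
  have hc : 0 < c := lt_min (by norm_num) (by positivity)
  set B := 2 * log 3 + log C₁
  refine ⟨(16 + 2 * (4 * |B| + 31)) / c, by positivity, fun n K μ hK hμ hslc hb hconc f hf => ?_⟩
  have hK0 : 0 < K := lt_of_lt_of_le one_pos hK
  set T := c / K with hT
  have X : Ctx μ T := ⟨hμ, hb, hslc, hmix, htilt, div_pos hc hK0⟩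
  have hE : ExpInt μ C₁ K := expInt_of_conc hap hC₀ hK0 hb hconc
  have hTK : 4 * K * T ≤ 1 := by
    rw [hT]; field_simp
    linarith [min_le_left (1 / 4 : ℝ) (1 / (4096 * M ^ 2 * C₁))]
  have hcM : T * K * M ^ 2 * C₁ ≤ 1 / 4096 := by
    rw [hT, div_mul_cancel₀ _ hK0.ne']
    have h := (le_div_iff₀ (by positivity)).1 (min_le_right (1 / 4) (1 / (4096 * M ^ 2 * C₁)))
    linarith
  have hI : 0 ≤ energy μ f := integral_nonneg fun x => sq_nonneg _
  have hV := var_bound X hpc hK0 hC1 hE hTK (le_max_left _ _) (le_max_right _ _) hcM hf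
  have hV0 : 0 ≤ vr μ f := integral_nonneg fun x => sq_nonneg _
  have hK' : (16 + 2 * (4 * |B| + 31)) / c * K * energy μ f
      = (16 + 2 * (4 * |B| + 31)) / T * energy μ f := by
    rw [hT]; field_simp
  rw [hK']
  rcases hV0.eq_or_lt with h0 | h0
  · have hae : ∀ᵐ x ∂μ, f x ^ 2 = (∫ y, f y ∂μ) ^ 2 := by
      have h := (integral_eq_zero_iff_of_nonneg (fun x => sq_nonneg _)
        (((bm_of_test hf).sub (BM.const _)).sq.integrable μ)).1 h0.symm
      filter_upwards [h] with x hx
      rw [sub_eq_zero.1 (sq_eq_zero_iff.1 hx)]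
    have e : entropy μ (fun x => f x ^ 2) = 0 := by
      simp only [entropy]
      rw [integral_congr_ae (g := fun _ => (∫ y, f y ∂μ) ^ 2 * log ((∫ y, f y ∂μ) ^ 2))
          (hae.mono fun x hx => by simp only [hx]),
        integral_congr_ae (g := fun _ => (∫ y, f y ∂μ) ^ 2) (hae.mono fun x hx => hx)]
      simp
    rw [e]
    have := X.pos
    positivity
  · refine (rothaus (bm_of_test hf) h0).trans ?_
    have h := ent_bound X hlsi hK0 hC1 hE hTK (test_sub_const hf (∫ y, f y ∂μ)) h0
    rw [energy_sub_const] at h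
    have h1 : vr μ f * B ≤ vr μ f * |B| := mul_le_mul_of_nonneg_left (le_abs_self B) hV0
    have h2 := mul_le_mul_of_nonneg_left hV (show 0 ≤ 4 * |B| + 31 by positivity)
    change _ ≤ 4 / T * energy μ f + vr μ f * B at h
    rw [show (16 + 2 * (4 * |B| + 31)) / T * energy μ f
      = 4 * (4 / T * energy μ f) + (4 * |B| + 31) * (2 / T * energy μ f) by ring]
    linarith

end Vale.Agent.P245.M8
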