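import Vale.Agent.P245.Defs

/-!
# P245, M8: consequences of Gaussian concentration
-/

namespace Vale.Agent.P245.M8

open MeasureTheory ProbabilityTheory Real
open scoped ENNReal

variable {n : ℕ}

/-- Exponential square integrability of the distance to sets of measure at least one half. -/
def ExpInt (μ : Measure (Rn n)) (C K : ℝ) : Prop :=
  ∀ A : Set (Rn n), (2 : ℝ≥0∞)⁻¹ ≤ μ A →
    ∫ x, exp (Metric.infDist x A ^ 2 / (2 * K)) ∂μ ≤ C

theorem integrable_of_continuous {μ : Measure (Rn n)} [IsFiniteMeasure μ] (hμ : BddSupp μ)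
    {h : Rn n → ℝ} (hc : Continuous h) : Integrable h μ := by
  obtain ⟨R, hR⟩ := hμ
  obtain ⟨B, hB⟩ := (isCompact_closedBall (0 : Rn n) R).exists_bound_of_continuousOn hc.continuousOn
  refine Integrable.of_bound hc.aestronglyMeasurable B (hR.mono fun x hx => hB x ?_)
  simpa using hx

theorem nonempty_of_half {μ : Measure (Rn n)} {A : Set (Rn n)} (hA : (2 : ℝ≥0∞)⁻¹ ≤ μ A) :
    A.Nonempty :=
  nonempty_of_measure_ne_zero (μ := μ) fun h => by simp [h] at hA

theorem test_add_const {g : Rn n → ℝ} (hg : Test g) (c : ℝ) : Test fun x => g x + c := by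
  obtain ⟨h1, M, hM⟩ := hg
  refine ⟨h1.add contDiff_const, M + |c|, fun x => ?_⟩
  obtain ⟨a, b, e⟩ := hM x
  simp only [fderiv_add_const]
  refine ⟨(abs_add_le _ _).trans (add_le_add a le_rfl), b.trans (le_add_of_nonneg_right (abs_nonneg c)),
    fun y => (e y).trans (mul_le_mul_of_nonneg_right (le_add_of_nonneg_right (abs_nonneg c))
      (norm_nonneg _))⟩

theorem tail_dist (hap : TestApprox) {C₀ K : ℝ} {μ : Measure (Rn n)}
    (hc : ∀ f, Test f → (∀ x, ‖fderiv ℝ f x‖ ≤ 1) → (∀ x, 0 ≤ f x) →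
      (2 : ℝ≥0∞)⁻¹ ≤ μ {x | f x ≤ 1} →
      ∀ r : ℝ, 0 ≤ r → μ {x | r ≤ f x} ≤ ENNReal.ofReal (C₀ * exp (-r ^ 2 / K)))
    {A : Set (Rn n)} (hA : (2 : ℝ≥0∞)⁻¹ ≤ μ A) {r : ℝ} (hr : 0 ≤ r) :
    μ {x | r ≤ Metric.infDist x A} ≤ ENNReal.ofReal (C₀ * exp (-r ^ 2 / K)) := by
  obtain ⟨g, hg, hgd, hge⟩ := hap n (fun x => min (Metric.infDist x A) r) r
    ((Metric.lipschitz_infDist_pt A).min_const r)
    (fun x => by rw [abs_of_nonneg (le_min Metric.infDist_nonneg hr)]; exact min_le_right _ _)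
    (1 / 2) (by norm_num)
  refine le_trans (measure_mono fun x (hx : r ≤ _) => ?_)
    (hc (fun x => g x + 1 / 2) (test_add_const hg _)
      (fun x => by rw [fderiv_add_const]; exact hgd x) (fun x => ?_) ?_ r hr)
  · show r ≤ g x + 1 / 2
    have := hge x
    rw [min_eq_right hx, abs_le] at this
    linarith
  · have := hge x
    rw [abs_le] at this
    linarith [le_min (Metric.infDist_nonneg (s := A) (x := x)) hr]
  · refine hA.trans (measure_mono fun x hx => ?_)
    show g x + 1 / 2 ≤ 1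
    have := hge x
    rw [Metric.infDist_zero_of_mem hx, min_eq_left hr, abs_le] at this
    linarith

/-- The constant of `expInt_of_conc`. -/
noncomputable def expC (C₀ : ℝ) : ℝ := C₀ * exp (1 / 2) / (1 - exp (-1 / 2))

theorem expC_pos {C₀ : ℝ} (h : 0 < C₀) : 0 < expC C₀ :=
  div_pos (by positivity) (sub_pos.2 (exp_lt_one_iff.2 (by norm_num)))

theorem expInt_of_conc (hap : TestApprox) {C₀ K : ℝ} (hC : 0 < C₀) (hK : 0 < K)
    {μ : Measure (Rn n)} [IsProbabilityMeasure μ] (hμ : BddSupp μ)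
    (hc : ∀ f, Test f → (∀ x, ‖fderiv ℝ f x‖ ≤ 1) → (∀ x, 0 ≤ f x) →
      (2 : ℝ≥0∞)⁻¹ ≤ μ {x | f x ≤ 1} →
      ∀ r : ℝ, 0 ≤ r → μ {x | r ≤ f x} ≤ ENNReal.ofReal (C₀ * exp (-r ^ 2 / K))) :
    ExpInt μ (expC C₀) K := by
  intro A hA
  obtain ⟨R, hR⟩ := hμ
  set d : Rn n → ℝ := fun x => Metric.infDist x A
  have hd : Continuous d := Metric.continuous_infDist_pt A
  obtain ⟨N, hN⟩ := exists_nat_gt ((d 0 + |R|) ^ 2 / K)
  set S : ℕ → Set (Rn n) := fun k => {x | (k : ℝ) * K ≤ d x ^ 2}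
  have hS : ∀ k, MeasurableSet (S k) := fun k =>
    measurableSet_le measurable_const (hd.pow 2).measurable
  set G : ℕ → Rn n → ℝ := fun k =>
    (S k).indicator fun _ => exp (((k : ℝ) + 1) / 2)
  have hG0 : ∀ k x, 0 ≤ G k x := fun k x =>
    Set.indicator_nonneg (fun _ _ => (exp_pos _).le) x
  have hpt : ∀ᵐ x ∂μ, exp (d x ^ 2 / (2 * K)) ≤ ∑ k ∈ Finset.range N, G k x := by
    filter_upwards [hR] with x hx
    have h1 : d x ≤ d 0 + |R| := by
      have := Metric.infDist_le_infDist_add_dist (s := A) (x := x) (y := 0)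
      rw [dist_zero_right] at this
      exact this.trans (add_le_add le_rfl (hx.trans (le_abs_self R)))
    have hq : 0 ≤ d x ^ 2 / K := by positivity
    have hk : ⌊d x ^ 2 / K⌋₊ < N := (Nat.floor_lt hq).2 (lt_of_le_of_lt
      ((div_le_div_iff_of_pos_right hK).2 (pow_le_pow_left₀ Metric.infDist_nonneg h1 2)) hN)
    refine le_trans ?_ (Finset.single_le_sum (fun k _ => hG0 k x) (Finset.mem_range.2 hk))
    have hmem : x ∈ S ⌊d x ^ 2 / K⌋₊ := by
      show (_ : ℝ) ≤ d x ^ 2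
      have := Nat.floor_le hq
      rwa [le_div_iff₀ hK] at this
    simp only [G, Set.indicator_of_mem hmem]
    refine exp_le_exp.2 ?_
    rw [show d x ^ 2 / (2 * K) = d x ^ 2 / K / 2 from by field_simp]
    linarith [Nat.lt_floor_add_one (d x ^ 2 / K)]
  have hGi : ∀ k, Integrable (G k) μ := fun k => (integrable_const _).indicator (hS k)
  refine le_trans (integral_mono_ae (integrable_of_continuous ⟨R, hR⟩
    ((hd.pow 2).div_const _).rexp) (integrable_finsetSum _ fun k _ => hGi k) hpt) ?_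
  rw [integral_finsetSum _ fun k _ => hGi k]
  have hk : ∀ k : ℕ, ∫ x, G k x ∂μ ≤ C₀ * exp (1 / 2) * exp (-1 / 2) ^ k := fun k => by
    rw [integral_indicator_const _ (hS k), smul_eq_mul]
    have hT : μ (S k) ≤ ENNReal.ofReal (C₀ * exp (-Real.sqrt ((k : ℝ) * K) ^ 2 / K)) := by
      refine le_trans (measure_mono fun x hx => ?_) (tail_dist hap hc hA (Real.sqrt_nonneg _))
      exact (Real.sqrt_le_left Metric.infDist_nonneg).2 hx
    have hT' : μ.real (S k) ≤ C₀ * exp (-(k : ℝ)) := by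
      rw [Real.sq_sqrt (by positivity), show -((k : ℝ) * K) / K = -(k : ℝ) from by field_simp] at hT
      rw [Measure.real, ← ENNReal.toReal_ofReal (by positivity : 0 ≤ C₀ * exp (-(k : ℝ)))]
      exact ENNReal.toReal_mono ENNReal.ofReal_ne_top hT
    refine (mul_le_mul_of_nonneg_right hT' (exp_pos _).le).trans_eq ?_
    rw [mul_assoc, mul_assoc, ← exp_nat_mul, ← exp_add, ← exp_add]
    ring_nf
  refine (Finset.sum_le_sum fun k _ => hk k).trans ?_
  rw [← Finset.mul_sum, expC, div_eq_mul_inv]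
  refine mul_le_mul_of_nonneg_left ?_ (by positivity)
  have hq : exp (-1 / 2 : ℝ) < 1 := exp_lt_one_iff.2 (by norm_num)
  rw [← tsum_geometric_of_lt_one (exp_pos _).le hq]
  exact (summable_geometric_of_lt_one (exp_pos _).le hq).sum_le_tsum _ fun _ _ => by positivity

theorem exists_median (μ : Measure (Rn n)) [IsProbabilityMeasure μ] {ψ : Rn n → ℝ}
    (hψ : Measurable ψ) {B : ℝ} (hB : ∀ x, |ψ x| ≤ B) :
    ∃ m, (2 : ℝ≥0∞)⁻¹ ≤ μ {x | ψ x ≤ m} ∧ (2 : ℝ≥0∞)⁻¹ ≤ μ {x | m ≤ ψ x} := by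
  set U : Set ℝ := {t | (2 : ℝ≥0∞)⁻¹ ≤ μ {x | ψ x ≤ t}}
  have hne : U.Nonempty := ⟨B, by
    show (2 : ℝ≥0∞)⁻¹ ≤ _
    rw [show {x | ψ x ≤ B} = Set.univ from
      Set.eq_univ_of_forall fun x => (le_abs_self _).trans (hB x), measure_univ]
    exact ENNReal.inv_le_one.2 one_le_two⟩
  have hbdd : BddBelow U := ⟨-B, fun t ht => by
    obtain ⟨x, hx⟩ := nonempty_of_half (μ := μ) ht
    have := hB x
    rw [abs_le] at this
    linarith [show ψ x ≤ t from hx]⟩
  set m := sInf U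
  have hmeas : ∀ t, MeasurableSet {x | ψ x ≤ t} := fun t => measurableSet_le hψ measurable_const
  refine ⟨m, ?_, ?_⟩
  · have he : {x | ψ x ≤ m} = ⋂ k : ℕ, {x | ψ x ≤ m + 1 / (k + 1)} := by
      ext x
      simp only [Set.mem_ofPred_eq, Set.mem_iInter]
      refine ⟨fun h k => h.trans (le_add_of_nonneg_right (by positivity)),
        fun h => le_of_forall_pos_le_add fun e he => ?_⟩
      obtain ⟨k, hk⟩ := exists_nat_one_div_lt he
      linarith [h k]
    rw [he, Antitone.measure_iInter (fun i j hij x hx => ?_)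
      (fun k => (hmeas _).nullMeasurableSet) ⟨0, measure_ne_top _ _⟩]
    · refine le_iInf fun k => ?_
      obtain ⟨t, ht, htm⟩ := exists_lt_of_csInf_lt hne
        (show sInf U < m + 1 / ((k : ℝ) + 1) from lt_add_of_pos_right _ (by positivity))
      exact le_trans ht (measure_mono fun x hx => (show ψ x ≤ t from hx).trans htm.le)
    · show ψ x ≤ _
      exact (show ψ x ≤ _ from hx).trans (by gcongr)
  · have he : {x | ψ x < m} = ⋃ k : ℕ, {x | ψ x ≤ m - 1 / (k + 1)} := by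
      ext x
      simp only [Set.mem_ofPred_eq, Set.mem_iUnion]
      refine ⟨fun h => ?_, fun ⟨k, hk⟩ => lt_of_le_of_lt hk (sub_lt_self _ (by positivity))⟩
      obtain ⟨k, hk⟩ := exists_nat_one_div_lt (sub_pos.2 h)
      exact ⟨k, by linarith⟩
    have hlt : μ {x | ψ x < m} ≤ (2 : ℝ≥0∞)⁻¹ := by
      rw [he, Monotone.measure_iUnion (fun i j hij x hx => ?_)]
      · exact iSup_le fun k => le_of_lt (not_le.1 fun h =>
          absurd (csInf_le hbdd h) (not_le.2 (sub_lt_self _ (by positivity))))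
      · show ψ x ≤ _
        exact (show ψ x ≤ _ from hx).trans (by gcongr)
    rw [show {x | m ≤ ψ x} = {x | ψ x < m}ᶜ from by ext x; simp,
      prob_compl_eq_one_sub (measurableSet_lt hψ measurable_const)]
    refine le_trans ?_ (tsub_le_tsub_left hlt 1)
    rw [ENNReal.one_sub_inv_two]

theorem le_mul_infDist {A : Set (Rn n)} (hA : A.Nonempty) {L a : ℝ} (hL : 0 ≤ L) {x : Rn n}
    (h : ∀ y ∈ A, a ≤ L * dist x y) : a ≤ L * Metric.infDist x A := by
  rcases hL.eq_or_lt with rfl | hL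
  · obtain ⟨y, hy⟩ := hA
    simpa using h y hy
  · rw [mul_comm, ← div_le_iff₀ hL, Metric.le_infDist hA]
    exact fun y hy => by rw [div_le_iff₀ hL, mul_comm]; exact h y hy

/-- Lipschitz functions have variance `O(L² K)`. -/
theorem var_le_of_expInt {μ : Measure (Rn n)} [IsProbabilityMeasure μ] (hμ : BddSupp μ)
    {C K : ℝ} (hK : 0 < K) (hE : ExpInt μ C K) {ψ : Rn n → ℝ} (hψ : Measurable ψ) {B : ℝ}
    (hB : ∀ x, |ψ x| ≤ B) {L : ℝ} (hL0 : 0 ≤ L) (hL : ∀ x y, ψ x ≤ ψ y + L * dist x y) :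
    ∫ x, (ψ x - ∫ y, ψ y ∂μ) ^ 2 ∂μ ≤ L ^ 2 * (4 * K * C) := by
  obtain ⟨m, hm1, hm2⟩ := exists_median μ hψ hB
  set e₁ := fun x => exp (Metric.infDist x {x | ψ x ≤ m} ^ 2 / (2 * K))
  set e₂ := fun x => exp (Metric.infDist x {x | m ≤ ψ x} ^ 2 / (2 * K))
  have i₁ : Integrable e₁ μ := integrable_of_continuous hμ
    (((Metric.continuous_infDist_pt _).pow 2).div_const _).rexp
  have i₂ : Integrable e₂ μ := integrable_of_continuous hμ
    (((Metric.continuous_infDist_pt _).pow 2).div_const _).rexp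
  have hsq : ∀ c, Integrable (fun x => (ψ x - c) ^ 2) μ := fun c =>
    Integrable.of_bound ((hψ.sub_const c).pow_const 2).aestronglyMeasurable ((B + |c|) ^ 2)
      (ae_of_all _ fun x => by
        rw [norm_eq_abs, abs_pow]
        exact pow_le_pow_left₀ (abs_nonneg _) ((abs_sub _ _).trans (add_le_add (hB x) le_rfl)) 2)
  set a := ∫ y, ψ y ∂μ
  have hmean : ∫ x, (ψ x - a) ^ 2 ∂μ ≤ ∫ x, (ψ x - m) ^ 2 ∂μ := by
    have hi : Integrable ψ μ := Integrable.of_bound hψ.aestronglyMeasurable B (ae_of_all _ hB)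
    have j : Integrable (fun x => 2 * (a - m) * (ψ x - a)) μ :=
      (hi.sub (integrable_const a)).const_mul _
    have h0 : ∫ x, (ψ x - a) ∂μ = 0 := by
      rw [integral_sub hi (integrable_const a), integral_const, probReal_univ, one_smul, sub_self]
    have : ∀ x, (ψ x - a) ^ 2 + 2 * (a - m) * (ψ x - a) ≤ (ψ x - m) ^ 2 := fun x => by
      nlinarith [sq_nonneg (a - m)]
    refine le_trans (le_of_eq ?_) (integral_mono ((hsq a).add j) (hsq m) this)
    rw [integral_add' (hsq a) j, integral_const_mul, h0, mul_zero, add_zero]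
  refine hmean.trans ?_
  have key : ∀ x, (ψ x - m) ^ 2 ≤ L ^ 2 * (2 * K) * (e₁ x + e₂ x) := fun x => by
    have hd : ∀ A : Set (Rn n),
        Metric.infDist x A ^ 2 ≤ 2 * K * exp (Metric.infDist x A ^ 2 / (2 * K)) := fun A => by
      refine le_trans (le_of_eq ?_) (mul_le_mul_of_nonneg_left
        (le_trans (le_add_of_nonneg_right zero_le_one) (add_one_le_exp _)) (by positivity))
      field_simp
    have p1 : 0 ≤ L ^ 2 * (2 * K) * e₁ x := by simp only [e₁]; positivity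
    have p2 : 0 ≤ L ^ 2 * (2 * K) * e₂ x := by simp only [e₂]; positivity
    rcases le_total m (ψ x) with h | h
    · have h3 := le_mul_infDist (nonempty_of_half hm1) hL0 (a := ψ x - m) (x := x)
        fun y hy => by linarith [hL x y, show ψ y ≤ m from hy]
      have h4 := pow_le_pow_left₀ (sub_nonneg.2 h) h3 2
      rw [mul_pow] at h4
      have h5 := mul_le_mul_of_nonneg_left (hd {x | ψ x ≤ m}) (sq_nonneg L)
      simp only [e₁] at *
      linarith
    · have h3 := le_mul_infDist (nonempty_of_half hm2) hL0 (a := m - ψ x) (x := x)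
        fun y hy => by linarith [hL y x, dist_comm x y ▸ hL y x, show m ≤ ψ y from hy]
      have h4 := pow_le_pow_left₀ (sub_nonneg.2 h) h3 2
      rw [mul_pow] at h4
      have h5 := mul_le_mul_of_nonneg_left (hd {x | m ≤ ψ x}) (sq_nonneg L)
      simp only [e₂] at *
      linarith [show (ψ x - m) ^ 2 = (m - ψ x) ^ 2 from by ring]
  refine (integral_mono (hsq m) ((i₁.add i₂).const_mul _) key).trans ?_
  simp only [Pi.add_apply]
  rw [integral_const_mul, integral_add i₁ i₂]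
  calc L ^ 2 * (2 * K) * (∫ x, e₁ x ∂μ + ∫ x, e₂ x ∂μ) ≤ L ^ 2 * (2 * K) * (C + C) :=
        mul_le_mul_of_nonneg_left (add_le_add (hE _ hm1) (hE _ hm2)) (by positivity)
    _ = _ := by ring

end Vale.Agent.P245.M8
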