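import Vale.Agent.P245.Defs
import Vale.Agent.P347.Quarter.Tilt

/-!
# P245, M8: the Gaussian forward operator

Shift inequalities for `fw T φ x = E φ (T x + √T Z)`: entropic (Wang) Harnack, its quadratic
version, and the Lipschitz bound.
-/

namespace Vale.Agent.P245.M8

open MeasureTheory ProbabilityTheory Real
open scoped RealInnerProductSpace

variable {n : ℕ}

/-- Standard Gaussian law. -/
noncomputable abbrev gam (n : ℕ) : Measure (Rn n) := stdGaussian (Rn n)

/-- Forward operator of the observation. -/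
noncomputable def fw (T : ℝ) (φ : Rn n → ℝ) (x : Rn n) : ℝ :=
  ∫ z, φ (T • x + Real.sqrt T • z) ∂gam n

/-- Inverse density of the translation by `v`. -/
noncomputable def wgt (v z : Rn n) : ℝ := exp (-⟪z, v⟫ - ‖v‖ ^ 2 / 2)

theorem wgt_pos (v z : Rn n) : 0 < wgt v z := exp_pos _

theorem measurable_wgt (v : Rn n) : Measurable (wgt v) :=
  (by unfold wgt; fun_prop : Continuous (wgt v)).measurable

theorem wgt_eq_tilt (v z : Rn n) : wgt v z = P347.Quarter.tilt (-v) z := by
  unfold wgt P347.Quarter.tilt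
  rw [inner_neg_right, norm_neg]

theorem integrable_exp_inner (v : Rn n) (C : ℝ) :
    Integrable (fun z => C * exp ⟪z, v⟫) (gam n) := by
  refine P347.Quarter.integrable_of_growth (Continuous.aestronglyMeasurable (by fun_prop))
    |C| ‖v‖ fun z => ?_
  rw [norm_eq_abs, abs_mul, abs_exp]
  gcongr
  rw [mul_comm]
  exact real_inner_le_norm z v

theorem integrable_bdd {φ : Rn n → ℝ} {μ : Measure (Rn n)} [IsFiniteMeasure μ]
    (hφ : Measurable φ) {B : ℝ} (hB : ∀ z, |φ z| ≤ B) : Integrable φ μ :=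
  Integrable.of_bound hφ.aestronglyMeasurable B (ae_of_all _ hB)

theorem integrable_bdd_shift {φ : Rn n → ℝ} (hφ : Measurable φ) {B : ℝ} (hB : ∀ z, |φ z| ≤ B)
    (v : Rn n) : Integrable (fun z => φ (z + v)) (gam n) :=
  integrable_bdd (hφ.comp (measurable_add_const v)) fun _ => hB _

theorem integrable_mul_wgt {φ : Rn n → ℝ} (hφ : Measurable φ) {B : ℝ} (hB : ∀ z, |φ z| ≤ B)
    (v : Rn n) : Integrable (fun z => φ (z + v) * wgt v z) (gam n) := by
  have hi : Integrable (wgt v) (gam n) := by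
    have := integrable_exp_inner (-v) (exp (-‖v‖ ^ 2 / 2))
    refine this.congr (ae_of_all _ fun z => ?_)
    simp only [wgt, inner_neg_right, ← exp_add]
    ring_nf
  exact hi.bdd_mul (hφ.comp (measurable_add_const v)).aestronglyMeasurable
    (ae_of_all _ fun z => hB _)

theorem integral_wgt_mul {φ : Rn n → ℝ} (hφ : Measurable φ) {B : ℝ} (hB : ∀ z, |φ z| ≤ B)
    (v : Rn n) : ∫ z, φ (z + v) * wgt v z ∂gam n = ∫ z, φ z ∂gam n := by
  have h := P347.Quarter.gauss_shift (v := fun y : Rn n => φ (y + v))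
    ((hφ.comp (measurable_add_const v)).stronglyMeasurable) (C := B) (R := 0)
    (fun x => by simpa using hB (x + v)) (-v)
  simp only [neg_add_cancel_right, smul_eq_mul] at h
  rw [h]
  exact integral_congr_ae (ae_of_all _ fun z => by simp only [wgt_eq_tilt]; ring)

theorem integral_exp_inner (v : Rn n) : ∫ z, exp ⟪z, v⟫ ∂gam n = exp (‖v‖ ^ 2 / 2) := by
  have h := integral_wgt_mul (φ := fun _ => (1 : ℝ)) measurable_const (B := 1) (by simp) (-v)
  simp only [one_mul, integral_const, probReal_univ, smul_eq_mul, wgt, inner_neg_right,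
    neg_neg, norm_neg, sub_eq_add_neg, exp_add, integral_mul_const, Real.exp_neg] at h
  field_simp at h
  simpa using h

theorem integral_inner_eq_zero (v : Rn n) : ∫ z, ⟪z, v⟫ ∂gam n = 0 := by
  simp_rw [real_inner_comm v]
  exact integral_strongDual_stdGaussian (innerSL ℝ v)

theorem fw_eq_shift {T : ℝ} (hT : 0 < T) (φ : Rn n → ℝ) (x y : Rn n) :
    fw T φ x
      = ∫ z, (fun w => φ (T • y + Real.sqrt T • w)) (z + Real.sqrt T • (x - y)) ∂gam n := by
  unfold fw
  congr 1
  funext z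
  congr 1
  rw [smul_add, smul_smul, Real.mul_self_sqrt hT.le, smul_sub]
  abel

theorem norm_shift {T : ℝ} (hT : 0 < T) (x y : Rn n) :
    ‖Real.sqrt T • (x - y)‖ ^ 2 = T * dist x y ^ 2 := by
  rw [norm_smul, mul_pow, norm_eq_abs, sq_abs, Real.sq_sqrt hT.le, dist_eq_norm]

theorem measurable_affine {φ : Rn n → ℝ} (hφ : Measurable φ) (T : ℝ) (y : Rn n) :
    Measurable fun w => φ (T • y + Real.sqrt T • w) :=
  hφ.comp (by fun_prop : Continuous fun w : Rn n => T • y + Real.sqrt T • w).measurable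

theorem measurable_fw (T : ℝ) {φ : Rn n → ℝ} (hφ : Measurable φ) : Measurable (fw T φ) := by
  have h : StronglyMeasurable
      (Function.uncurry fun (x z : Rn n) => φ (T • x + Real.sqrt T • z)) :=
    (hφ.comp (by fun_prop : Continuous fun p : Rn n × Rn n =>
      T • p.1 + Real.sqrt T • p.2).measurable).stronglyMeasurable
  exact (h.integral_prod_right (ν := gam n)).measurable

theorem fw_mono (T : ℝ) {φ ψ : Rn n → ℝ} (hφ : Measurable φ) (hψ : Measurable ψ) {B : ℝ}
    (hB : ∀ z, |φ z| ≤ B) {B' : ℝ} (hB' : ∀ z, |ψ z| ≤ B') (h : ∀ z, φ z ≤ ψ z) (x : Rn n) :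
    fw T φ x ≤ fw T ψ x :=
  integral_mono (integrable_bdd (measurable_affine hφ T x) fun _ => hB _)
    (integrable_bdd (measurable_affine hψ T x) fun _ => hB' _) fun _ => h _

theorem abs_fw_le (T : ℝ) {φ : Rn n → ℝ} {B : ℝ}
    (hB : ∀ z, |φ z| ≤ B) (x : Rn n) : |fw T φ x| ≤ B := by
  have := norm_integral_le_of_norm_le_const (μ := gam n)
    (ae_of_all _ fun z => show ‖φ (T • x + Real.sqrt T • z)‖ ≤ B from hB _)
  simpa [fw] using this

/-- Entropic shift inequality. -/
theorem shift_log {φ : Rn n → ℝ} (hφ : Measurable φ) {B : ℝ} (hB : ∀ z, |φ z| ≤ B)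
    (v : Rn n) :
    ∫ z, φ (z + v) ∂gam n ≤ log (∫ z, exp (φ z) ∂gam n) + ‖v‖ ^ 2 / 2 := by
  have hE : ∀ z, |exp (φ z)| ≤ exp B := fun z => by
    rw [abs_exp]; exact exp_le_exp.2 ((le_abs_self _).trans (hB z))
  have hEi : Integrable (fun z => exp (φ z)) (gam n) :=
    integrable_bdd (measurable_exp.comp hφ) hE
  set N := ∫ z, exp (φ z) ∂gam n
  have hN : 0 < N := integral_exp_pos hEi
  have i1 := integrable_bdd_shift hφ hB v
  have i2 : Integrable (fun z : Rn n => ⟪z, v⟫) (gam n) := by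
    simp_rw [real_inner_comm v]
    exact IsGaussian.integrable_dual (gam n) (innerSL ℝ v)
  have i3 : Integrable (fun z => exp (φ (z + v)) * wgt v z) (gam n) :=
    integrable_mul_wgt (measurable_exp.comp hφ) hE v
  have e3 : ∫ z, exp (φ (z + v)) * wgt v z ∂gam n = N :=
    integral_wgt_mul (measurable_exp.comp hφ) hE v
  have key : ∀ z, φ (z + v) - ⟪z, v⟫ + (1 - (log N + ‖v‖ ^ 2 / 2))
      ≤ exp (φ (z + v)) * wgt v z / N := fun z => by
    calc _ = (φ (z + v) - ⟪z, v⟫ - ‖v‖ ^ 2 / 2 - log N) + 1 := by ring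
      _ ≤ exp (φ (z + v) - ⟪z, v⟫ - ‖v‖ ^ 2 / 2 - log N) := add_one_le_exp _
      _ = _ := by rw [exp_sub, exp_log hN, wgt, ← exp_add]; ring_nf
  have h := integral_mono ((i1.sub i2).add (integrable_const _)) (i3.div_const N) key
  rw [integral_div, e3, div_self hN.ne', integral_add' (i1.sub i2) (integrable_const _),
    integral_sub' i1 i2, integral_inner_eq_zero, integral_const, probReal_univ, one_smul] at h
  linarith

/-- Entropic Harnack inequality for `fw`. -/
theorem fw_log {T : ℝ} (hT : 0 < T) {φ : Rn n → ℝ} (hφ : Measurable φ) {B : ℝ}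
    (hB : ∀ z, |φ z| ≤ B) (x y : Rn n) :
    fw T φ x ≤ log (fw T (fun z => exp (φ z)) y) + T / 2 * dist x y ^ 2 := by
  rw [fw_eq_shift hT φ x y]
  refine (shift_log (measurable_affine hφ T y) (fun z => hB _) _).trans_eq ?_
  rw [norm_shift hT, fw]
  ring

/-- Quadratic shift inequality. -/
theorem shift_sq {φ : Rn n → ℝ} (hφ : Measurable φ) {B : ℝ} (hB : ∀ z, |φ z| ≤ B)
    (v : Rn n) {a : ℝ} (ha : 0 < a) :
    ∫ z, φ (z + v) ∂gam n
      ≤ a / 2 * ∫ z, φ z ^ 2 ∂gam n + 1 / (2 * a) * exp (‖v‖ ^ 2) := by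
  have hsq : ∀ z, |φ z ^ 2| ≤ B ^ 2 := fun z => by
    rw [abs_pow]; exact pow_le_pow_left₀ (abs_nonneg _) (hB z) 2
  have i1 := integrable_bdd_shift hφ hB v
  have i2 := integrable_mul_wgt (hφ.pow_const 2) hsq v
  have i3 := integrable_exp_inner v (1 / (2 * a) * exp (‖v‖ ^ 2 / 2))
  have key : ∀ z, φ (z + v) ≤ a / 2 * (φ (z + v) ^ 2 * wgt v z)
      + 1 / (2 * a) * exp (‖v‖ ^ 2 / 2) * exp ⟪z, v⟫ := fun z => by
    have hw := wgt_pos v z
    have e : exp (‖v‖ ^ 2 / 2) * exp ⟪z, v⟫ = (wgt v z)⁻¹ := by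
      rw [wgt, ← exp_neg, ← exp_add]; ring_nf
    rw [mul_assoc (1 / (2 * a)), e]
    have h2 : 0 ≤ (a * wgt v z * φ (z + v) - 1) ^ 2 / (2 * a * wgt v z) := by positivity
    have h3 : (a * wgt v z * φ (z + v) - 1) ^ 2 / (2 * a * wgt v z)
        = a / 2 * (φ (z + v) ^ 2 * wgt v z) + 1 / (2 * a) * (wgt v z)⁻¹ - φ (z + v) := by
      field_simp
      ring
    linarith
  refine (integral_mono i1 ((i2.const_mul _).add i3) key).trans_eq ?_
  rw [integral_add' (i2.const_mul _) i3, integral_const_mul, integral_const_mul,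
    integral_wgt_mul (hφ.pow_const 2) hsq v, integral_exp_inner, mul_assoc (1 / (2 * a)),
    ← exp_add]
  ring_nf

/-- Quadratic Harnack inequality for `fw`. -/
theorem fw_sq {T : ℝ} (hT : 0 < T) {φ : Rn n → ℝ} (hφ : Measurable φ) {B : ℝ}
    (hB : ∀ z, |φ z| ≤ B) (x y : Rn n) {a : ℝ} (ha : 0 < a) :
    fw T φ x ≤ a / 2 * fw T (fun z => φ z ^ 2) y + 1 / (2 * a) * exp (T * dist x y ^ 2) := by
  rw [fw_eq_shift hT φ x y]
  refine (shift_sq (measurable_affine hφ T y) (fun z => hB _) _ ha).trans_eq ?_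
  rw [norm_shift hT, fw]

/-- Total variation bound for a translation. -/
theorem shift_tv {φ : Rn n → ℝ} (hφ : Measurable φ) {B : ℝ} (hB : ∀ z, |φ z| ≤ B)
    (v : Rn n) :
    ∫ z, φ (z + v) ∂gam n - ∫ z, φ z ∂gam n ≤ 2 * B * ‖v‖ := by
  have hB0 : 0 ≤ B := (abs_nonneg _).trans (hB 0)
  have i1 := integrable_bdd_shift hφ hB v
  have i2 := integrable_bdd (μ := gam n) hφ hB
  rcases le_or_gt 1 ‖v‖ with h1 | h1
  · have a1 := norm_integral_le_of_norm_le_const (μ := gam n)
      (ae_of_all _ fun z => show ‖φ (z + v)‖ ≤ B from hB _)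
    have a2 := norm_integral_le_of_norm_le_const (μ := gam n)
      (ae_of_all _ fun z => show ‖φ z‖ ≤ B from hB _)
    simp only [norm_eq_abs, probReal_univ, mul_one, abs_le] at a1 a2
    have : B * 1 ≤ B * ‖v‖ := mul_le_mul_of_nonneg_left h1 hB0
    linarith
  rcases eq_or_ne v 0 with rfl | hv
  · simp
  have hv0 : 0 < ‖v‖ := norm_pos_iff.2 hv
  have one : ∫ z, wgt v z ∂gam n = 1 := by
    have := integral_wgt_mul (φ := fun _ => (1 : ℝ)) measurable_const (B := 1) (by simp) v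
    simpa using this
  have iw : Integrable (wgt v) (gam n) := by
    have := integrable_mul_wgt (φ := fun _ => (1 : ℝ)) measurable_const (B := 1) (by simp) v
    simpa using this
  have ew : ∀ z, wgt v z ^ 2 = exp (-‖v‖ ^ 2) * exp ⟪z, (-2 : ℝ) • v⟫ := fun z => by
    rw [wgt, ← exp_nat_mul, ← exp_add, inner_smul_right]; push_cast; ring_nf
  have iw2 : Integrable (fun z => wgt v z ^ 2) (gam n) := by
    simp_rw [ew]; exact integrable_exp_inner _ _
  have two : ∫ z, wgt v z ^ 2 ∂gam n = exp (‖v‖ ^ 2) := by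
    simp_rw [ew]
    rw [integral_const_mul, integral_exp_inner, ← exp_add, norm_smul, norm_eq_abs]
    norm_num
    ring
  have i4 := integrable_mul_wgt hφ hB v
  have e4 := integral_wgt_mul hφ hB v
  have key : ∀ z, φ (z + v) - φ (z + v) * wgt v z
      ≤ B / (2 * ‖v‖) * (wgt v z ^ 2 - 2 * wgt v z + 1) + B * ‖v‖ / 2 := fun z => by
    have h5 : φ (z + v) * (1 - wgt v z) ≤ B * |1 - wgt v z| := by
      refine (le_abs_self _).trans ?_
      rw [abs_mul]
      exact mul_le_mul_of_nonneg_right (hB _) (abs_nonneg _)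
    have h6 : 0 ≤ B / (2 * ‖v‖) * (|1 - wgt v z| - ‖v‖) ^ 2 := by positivity
    have h7 : B / (2 * ‖v‖) * (|1 - wgt v z| - ‖v‖) ^ 2
        = B / (2 * ‖v‖) * (wgt v z ^ 2 - 2 * wgt v z + 1) + B * ‖v‖ / 2
          - B * |1 - wgt v z| := by
      have : |1 - wgt v z| ^ 2 = wgt v z ^ 2 - 2 * wgt v z + 1 := by rw [sq_abs]; ring
      rw [← this]
      field_simp
      ring
    nlinarith
  have i5 : Integrable (fun z => wgt v z ^ 2 - 2 * wgt v z + 1) (gam n) :=
    (iw2.sub (iw.const_mul 2)).add (integrable_const 1)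
  have h := integral_mono (i1.sub i4)
    ((i5.const_mul (B / (2 * ‖v‖))).add (integrable_const _)) key
  rw [integral_sub' i1 i4, e4, integral_add' (i5.const_mul _) (integrable_const _),
    integral_const_mul, integral_add (f := fun z => wgt v z ^ 2 - 2 * wgt v z)
      (iw2.sub (iw.const_mul 2)) (integrable_const 1),
    integral_sub iw2 (iw.const_mul 2), integral_const_mul, two, one, integral_const,
    integral_const, probReal_univ, one_smul, one_smul] at h
  have hexp := Real.abs_exp_sub_one_le (x := ‖v‖ ^ 2) (by rw [abs_pow, abs_norm]; nlinarith)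
  rw [abs_pow, abs_norm] at hexp
  have h8 : B / (2 * ‖v‖) * (exp (‖v‖ ^ 2) - 2 * 1 + 1) ≤ B * ‖v‖ := by
    calc _ ≤ B / (2 * ‖v‖) * (2 * ‖v‖ ^ 2) := by
          apply mul_le_mul_of_nonneg_left _ (by positivity)
          linarith [le_abs_self (exp (‖v‖ ^ 2) - 1)]
      _ = _ := by field_simp
  have : 0 ≤ B * ‖v‖ := by positivity
  linarith

/-- Lipschitz bound for `fw`. -/
theorem fw_lip {T : ℝ} (hT : 0 < T) {φ : Rn n → ℝ} (hφ : Measurable φ) {B : ℝ}
    (hB : ∀ z, |φ z| ≤ B) (x y : Rn n) :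
    fw T φ x ≤ fw T φ y + 2 * B * Real.sqrt T * dist x y := by
  rw [fw_eq_shift hT φ x y]
  have h := shift_tv (measurable_affine hφ T y) (fun z => hB _) (Real.sqrt T • (x - y))
  rw [norm_smul, norm_eq_abs, abs_of_nonneg (Real.sqrt_nonneg T), ← dist_eq_norm, ← mul_assoc] at h
  simp only [fw] at *
  linarith

end Vale.Agent.P245.M8
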