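import Vale.Agent.P245.M8.Gauss

/-!
# P245, M8: the mixture identity and duality
-/

namespace Vale.Agent.P245.M8

open MeasureTheory ProbabilityTheory Real

variable {n : ℕ}

/-- Bounded measurable. -/
def BM (φ : Rn n → ℝ) : Prop := Measurable φ ∧ ∃ B, ∀ x, |φ x| ≤ B

theorem BM.integrable {φ : Rn n → ℝ} (h : BM φ) (μ : Measure (Rn n)) [IsFiniteMeasure μ] :
    Integrable φ μ := by
  obtain ⟨hm, B, hB⟩ := h
  exact integrable_bdd hm hB

theorem BM.mul {φ ψ : Rn n → ℝ} (h : BM φ) (k : BM ψ) : BM fun x => φ x * ψ x := by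
  obtain ⟨hm, B, hB⟩ := h
  obtain ⟨km, B', kB⟩ := k
  exact ⟨hm.mul km, B * B', fun x => by
    rw [abs_mul]
    exact mul_le_mul (hB x) (kB x) (abs_nonneg _) ((abs_nonneg _).trans (hB x))⟩

theorem BM.add {φ ψ : Rn n → ℝ} (h : BM φ) (k : BM ψ) : BM fun x => φ x + ψ x := by
  obtain ⟨hm, B, hB⟩ := h
  obtain ⟨km, B', kB⟩ := k
  exact ⟨hm.add km, B + B', fun x => (abs_add_le _ _).trans (add_le_add (hB x) (kB x))⟩

theorem BM.sub {φ ψ : Rn n → ℝ} (h : BM φ) (k : BM ψ) : BM fun x => φ x - ψ x := by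
  obtain ⟨hm, B, hB⟩ := h
  obtain ⟨km, B', kB⟩ := k
  exact ⟨hm.sub km, B + B', fun x => (abs_sub _ _).trans (add_le_add (hB x) (kB x))⟩

theorem BM.const (c : ℝ) : BM fun _ : Rn n => c := ⟨measurable_const, |c|, fun _ => le_rfl⟩

theorem BM.sq {φ : Rn n → ℝ} (h : BM φ) : BM fun x => φ x ^ 2 := by
  simpa only [pow_two] using h.mul h

theorem BM.cont_comp {φ : Rn n → ℝ} (h : BM φ) {G : ℝ → ℝ} (hG : Continuous G) :
    BM fun x => G (φ x) := by
  obtain ⟨hm, B, hB⟩ := h
  obtain ⟨C, hC⟩ := (isCompact_Icc (a := -B) (b := B)).exists_bound_of_continuousOn hG.continuousOn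
  exact ⟨hG.measurable.comp hm, C, fun x => hC _ (abs_le.1 (hB x))⟩

theorem bm_of_test {f : Rn n → ℝ} (hf : Test f) : BM f := by
  obtain ⟨h1, M, hM⟩ := hf
  exact ⟨h1.continuous.measurable, M, fun x => (hM x).1⟩

theorem bm_grad {f : Rn n → ℝ} (hf : Test f) : BM fun x => ‖fderiv ℝ f x‖ ^ 2 := by
  obtain ⟨h1, M, hM⟩ := hf
  have : BM fun x => ‖fderiv ℝ f x‖ :=
    ⟨(h1.continuous_fderiv one_ne_zero).norm.measurable, M, fun x => by
      rw [abs_norm]; exact (hM x).2.1⟩
  exact this.sq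

theorem BM.fw {φ : Rn n → ℝ} (h : BM φ) (T : ℝ) : BM (M8.fw T φ) := by
  obtain ⟨hm, B, hB⟩ := h
  exact ⟨measurable_fw T hm, B, abs_fw_le T hB⟩

/-- Standing hypotheses of M8. -/
structure Ctx (μ : Measure (Rn n)) (T : ℝ) : Prop where
  prob : IsProbabilityMeasure μ
  bdd : BddSupp μ
  slc : IsSLC 0 μ
  mix : Mixture
  tlt : TiltSLC
  pos : 0 < T

variable {μ : Measure (Rn n)} {T : ℝ}

theorem Ctx.tilt_prob (X : Ctx μ T) (th : Rn n) : IsProbabilityMeasure (tilt μ T th) :=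
  (X.tlt n 0 T th μ X.prob X.bdd X.slc).1

theorem Ctx.tilt_slc (X : Ctx μ T) (th : Rn n) : IsSLC T (tilt μ T th) := by
  simpa using (X.tlt n 0 T th μ X.prob X.bdd X.slc).2.2.1

theorem Ctx.ex_eq (X : Ctx μ T) (th : Rn n) (h : Rn n → ℝ) :
    ex μ T th h = ∫ x, h x ∂tilt μ T th :=
  ((X.tlt n 0 T th μ X.prob X.bdd X.slc).2.2.2 h).symm

theorem Ctx.obs_prob (X : Ctx μ T) : IsProbabilityMeasure (obs μ T) := by
  have := X.prob
  exact Measure.isProbabilityMeasure_map (Measurable.aemeasurable (by fun_prop))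

theorem Ctx.bm_ex (X : Ctx μ T) {h : Rn n → ℝ} (hh : BM h) : BM fun th => ex μ T th h := by
  obtain ⟨hm, B, hB⟩ := hh
  have := X.prob
  have hnum : ∀ k : Rn n → ℝ, Measurable k → Measurable fun th => num μ T th k := fun k hk => by
    have : StronglyMeasurable
        (Function.uncurry fun (th x : Rn n) => k x * exp (texp T th x)) :=
      ((hk.comp measurable_snd).mul (by unfold texp; fun_prop :
        Continuous fun p : Rn n × Rn n => exp (texp T p.1 p.2)).measurable).stronglyMeasurable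
    exact (this.integral_prod_right (ν := μ)).measurable
  refine ⟨(hnum h hm).div (hnum _ measurable_const), B, fun th => ?_⟩
  have := X.tilt_prob th
  show |ex μ T th h| ≤ B
  rw [X.ex_eq th h]
  simpa using norm_integral_le_of_norm_le_const (μ := tilt μ T th)
    (ae_of_all _ fun x => show ‖h x‖ ≤ B from hB x)

theorem Ctx.ex_nonneg (X : Ctx μ T) {h : Rn n → ℝ} (hh : ∀ x, 0 ≤ h x) (th : Rn n) :
    0 ≤ ex μ T th h := by
  rw [X.ex_eq th h]
  exact integral_nonneg hh

theorem Ctx.integral_obs (X : Ctx μ T) {F : Rn n → ℝ} (hF : BM F) :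
    ∫ th, F th ∂obs μ T = ∫ x, fw T F x ∂μ := by
  have := X.prob
  obtain ⟨hm, B, hB⟩ := hF
  have hc : Measurable fun p : Rn n × Rn n => T • p.1 + Real.sqrt T • p.2 := by fun_prop
  rw [obs, integral_map hc.aemeasurable hm.aestronglyMeasurable,
    integral_prod (fun p : Rn n × Rn n => F (T • p.1 + Real.sqrt T • p.2))
      (Integrable.of_bound (hm.comp hc).aestronglyMeasurable B (ae_of_all _ fun p => hB _))]
  rfl

/-- The mixture identity, for `H th x = φ th * h x`. -/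
theorem Ctx.dual (X : Ctx μ T) {φ h : Rn n → ℝ} (hφ : BM φ) (hh : BM h) :
    ∫ th, φ th * ex μ T th h ∂obs μ T = ∫ x, h x * fw T φ x ∂μ := by
  have := X.prob
  obtain ⟨hm, A, hA⟩ := hφ
  obtain ⟨km, B, hB⟩ := hh
  have hA0 : 0 ≤ A := (abs_nonneg _).trans (hA 0)
  have hB0 : 0 ≤ B := (abs_nonneg _).trans (hB 0)
  set D := A * B + 1
  have hD : 0 < D := by positivity
  have hb : ∀ th x, |φ th * h x| ≤ D := fun th x => by
    rw [abs_mul]
    exact (mul_le_mul (hA th) (hB x) (abs_nonneg _) hA0).trans (le_add_of_nonneg_right zero_le_one)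
  have e := (X.mix n μ X.prob X.bdd T X.pos).1 (fun th x => φ th * h x / D)
    (((hm.comp measurable_fst).mul (km.comp measurable_snd)).div_const D) fun th x => by
      rw [abs_div, abs_of_pos hD, div_le_one hD]; exact hb th x
  have e1 : ∀ th, ex μ T th (fun x => φ th * h x / D) = φ th * ex μ T th h / D := fun th => by
    rw [X.ex_eq, X.ex_eq, integral_div, integral_const_mul]
  simp only [e1, integral_div] at e
  rw [← (div_left_inj' hD.ne').1 e]
  have hc : Measurable fun p : Rn n × Rn n => T • p.1 + Real.sqrt T • p.2 := by fun_prop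
  rw [integral_prod (fun p : Rn n × Rn n => φ (T • p.1 + Real.sqrt T • p.2) * h p.1)
    (Integrable.of_bound ((hm.comp hc).mul (km.comp measurable_fst)).aestronglyMeasurable D
      (ae_of_all _ fun p => hb _ _))]
  simp only [integral_mul_const, fw, mul_comm (h _)]

theorem Ctx.mix_one (X : Ctx μ T) {h : Rn n → ℝ} (hh : BM h) :
    ∫ th, ex μ T th h ∂obs μ T = ∫ x, h x ∂μ := by
  have := X.dual (BM.const 1) hh
  simpa [fw] using this

theorem Ctx.ex_sub (X : Ctx μ T) {f h : Rn n → ℝ} (hf : BM f) (hh : BM h) (th : Rn n) :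
    ex μ T th (fun x => f x - h x) = ex μ T th f - ex μ T th h := by
  have := X.tilt_prob th
  rw [X.ex_eq, X.ex_eq, X.ex_eq, integral_sub (hf.integrable _) (hh.integrable _)]

theorem Ctx.ex_add (X : Ctx μ T) {f h : Rn n → ℝ} (hf : BM f) (hh : BM h) (th : Rn n) :
    ex μ T th (fun x => f x + h x) = ex μ T th f + ex μ T th h := by
  have := X.tilt_prob th
  rw [X.ex_eq, X.ex_eq, X.ex_eq, integral_add (hf.integrable _) (hh.integrable _)]

end Vale.Agent.P245.M8
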