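import Vale.Agent.P245.M8.Mix
import Vale.Agent.P245.M8.Dist

/-!
# P245, M8: defective log-Sobolev and Poincaré
-/

namespace Vale.Agent.P245.M8

open MeasureTheory ProbabilityTheory Real
open scoped ENNReal

variable {n : ℕ} {μ : Measure (Rn n)} {T K C : ℝ}

theorem fw_add_const [IsProbabilityMeasure (gam n)] (T : ℝ) {φ : Rn n → ℝ} (h : BM φ) (c : ℝ)
    (x : Rn n) : fw T (fun z => φ z + c) x = fw T φ x + c := by
  obtain ⟨hm, B, hB⟩ := h
  unfold fw
  rw [integral_add (f := fun z => φ (T • x + Real.sqrt T • z))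
    (integrable_bdd (measurable_affine hm T x) fun _ => hB _) (integrable_const c),
    integral_const, probReal_univ, one_smul]

theorem continuous_fw (hT : 0 < T) {φ : Rn n → ℝ} (h : BM φ) : Continuous (fw T φ) := by
  obtain ⟨hm, B, hB⟩ := h
  have hB0 : 0 ≤ B := (abs_nonneg _).trans (hB 0)
  exact (LipschitzWith.of_le_add_mul (Real.toNNReal (2 * B * Real.sqrt T)) fun x y => by
    rw [Real.coe_toNNReal _ (by positivity)]
    exact fw_lip hT hm hB x y).continuous

theorem half_of_mean [IsProbabilityMeasure μ] {h : Rn n → ℝ} (hm : Measurable h)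
    (hi : Integrable h μ) (h0 : ∀ x, 0 ≤ h x) {a : ℝ} (ha : 0 < a) (hint : ∫ x, h x ∂μ ≤ a) :
    (2 : ℝ≥0∞)⁻¹ ≤ μ {x | h x ≤ 2 * a} := by
  have hk := mul_meas_ge_le_integral_of_nonneg (μ := μ) (ae_of_all _ h0) hi (2 * a)
  have h1 : μ.real {x | 2 * a ≤ h x} ≤ 2⁻¹ := by nlinarith
  have h2 : μ {x | h x ≤ 2 * a}ᶜ ≤ (2 : ℝ≥0∞)⁻¹ := by
    refine (measure_mono fun x (hx : ¬ h x ≤ 2 * a) => (not_le.1 hx).le).trans ?_
    show μ {x | 2 * a ≤ h x} ≤ _
    rw [show (2 : ℝ≥0∞)⁻¹ = ENNReal.ofReal 2⁻¹ by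
      rw [ENNReal.ofReal_inv_of_pos (by norm_num)]; norm_num]
    exact (ENNReal.le_ofReal_iff_toReal_le (measure_ne_top _ _) (by norm_num)).2 h1
  rw [prob_compl_eq_one_sub (measurableSet_le hm measurable_const)] at h2
  have := tsub_le_tsub_left h2 1
  rwa [ENNReal.one_sub_inv_two, ENNReal.sub_sub_cancel ENNReal.one_ne_top prob_le_one] at this

theorem gibbs {a b : ℝ} (ha : 0 ≤ a) (hb : 0 < b) (u : ℝ) :
    a * u ≤ a * log a - a * log b - a + b * exp u := by
  rcases ha.eq_or_lt with rfl | ha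
  · simp only [zero_mul, sub_zero, zero_add]
    positivity
  · have h := mul_le_mul_of_nonneg_left (add_one_le_exp (u + log b - log a)) ha.le
    rw [exp_sub, exp_add, exp_log ha, exp_log hb, mul_div_cancel₀ _ ha.ne'] at h
    linarith

theorem scale_le (hK : 0 < K) (hTK : 4 * K * T ≤ 1) {d : ℝ} {j : ℝ} (hj : j ≤ 2) (hT : 0 < T) :
    exp (j * (T * d ^ 2)) ≤ exp (d ^ 2 / (2 * K)) := by
  refine exp_le_exp.2 ?_
  rw [le_div_iff₀ (by positivity)]
  nlinarith [mul_le_mul_of_nonneg_right hTK (sq_nonneg d),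
    mul_le_mul_of_nonneg_right hj (show 0 ≤ T * d ^ 2 * K by positivity)]

/-- Defective log-Sobolev inequality. -/
theorem ent_bound (X : Ctx μ T) (hlsi : LsiSLC) (hK : 0 < K) (hC : 0 < C) (hE : ExpInt μ C K)
    (hTK : 4 * K * T ≤ 1) {f : Rn n → ℝ} (hf : Test f) (hS : 0 < ∫ x, f x ^ 2 ∂μ) :
    entropy μ (fun x => f x ^ 2) ≤ 4 / T * energy μ f
      + (∫ x, f x ^ 2 ∂μ) * (2 * log 3 + log C) := by
  have := X.prob
  have := X.obs_prob
  have hsq : BM fun x => f x ^ 2 := (bm_of_test hf).sq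
  have hlog : BM fun x => f x ^ 2 * log (f x ^ 2) := hsq.cont_comp Real.continuous_mul_log
  set S := ∫ x, f x ^ 2 ∂μ with hSdef
  set g := fun th => ex μ T th fun x => f x ^ 2
  have hg : BM g := X.bm_ex hsq
  have hg0 : ∀ th, 0 ≤ g th := X.ex_nonneg fun x => sq_nonneg _
  have hgS : ∫ th, g th ∂obs μ T = S := X.mix_one hsq
  set φ := fun th => log (g th + S) with hφdef
  have hφ : BM φ := by
    have := hg.cont_comp (G := fun t => log (max t 0 + S))
      ((continuous_id.max continuous_const).add continuous_const |>.log fun t => by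
        show max t 0 + S ≠ 0
        linarith [le_max_right t (0 : ℝ)])
    simpa only [max_eq_left (hg0 _)] using this
  -- tilted part
  have step : ∀ th, ex μ T th (fun x => f x ^ 2 * log (f x ^ 2))
      ≤ 2 / T * ex μ T th (fun x => ‖fderiv ℝ f x‖ ^ 2) + φ th * g th := fun th => by
    have := X.tilt_prob th
    have h := hlsi n T (tilt μ T th) this X.pos (X.tilt_slc th) f hf
    simp only [entropy, energy, ← X.ex_eq th] at h
    have h2 : g th * log (g th) ≤ φ th * g th := by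
      rcases (hg0 th).eq_or_lt with h0 | h0
      · simp [← h0]
      · rw [mul_comm]
        exact mul_le_mul_of_nonneg_right (log_le_log h0 (le_add_of_nonneg_right hS.le)) h0.le
    change ex μ T th (fun x => f x ^ 2 * log (f x ^ 2)) - g th * log (g th) ≤ _ at h
    linarith
  have e1 := integral_mono ((X.bm_ex hlog).integrable (obs μ T))
    (((X.bm_ex (bm_grad hf)).integrable (obs μ T)).const_mul (2 / T) |>.add
      ((hφ.mul hg).integrable _)) step
  simp only [Pi.add_apply] at e1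
  rw [X.mix_one hlog, integral_add (((X.bm_ex (bm_grad hf)).integrable _).const_mul _)
      ((hφ.mul hg).integrable _), integral_const_mul, X.mix_one (bm_grad hf), X.dual hφ hsq] at e1
  -- the set where the forward image is small
  have hfg : BM (fw T g) := hg.fw T
  have hfg0 : ∀ x, 0 ≤ fw T g x := fun x => integral_nonneg fun z => hg0 _
  have hA : (2 : ℝ≥0∞)⁻¹ ≤ μ {x | fw T g x ≤ 2 * S} :=
    half_of_mean hfg.1 (hfg.integrable μ) hfg0 hS (by rw [← X.integral_obs hg, hgS])
  set A := {x | fw T g x ≤ 2 * S}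
  have hAc : IsClosed A := isClosed_le (continuous_fw X.pos hg) continuous_const
  set d := fun x => Metric.infDist x A
  have hd : Continuous d := Metric.continuous_infDist_pt A
  have hψ : ∀ x, fw T φ x ≤ log (3 * S) + T / 2 * d x ^ 2 := fun x => by
    obtain ⟨y, hy, hxy⟩ := hAc.exists_infDist_eq_dist (nonempty_of_half hA) x
    obtain ⟨hm, B, hB⟩ := hφ
    have h := fw_log X.pos hm hB x y
    have he : fw T (fun z => exp (φ z)) y = fw T g y + S := by
      rw [← fw_add_const T hg S y]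
      congr 1
      funext z
      exact exp_log (by linarith [hg0 z])
    rw [he] at h
    have h2 : log (fw T g y + S) ≤ log (3 * S) :=
      log_le_log (by linarith [hfg0 y]) (by linarith [show fw T g y ≤ 2 * S from hy])
    show _ ≤ _ + T / 2 * Metric.infDist x A ^ 2
    rw [hxy]
    linarith
  have hb : 0 < S / C := div_pos hS hC
  have key : ∀ x, f x ^ 2 * fw T φ x ≤ log (3 * S) * f x ^ 2
      + 2⁻¹ * (f x ^ 2 * log (f x ^ 2) - (log (S / C) + 1) * f x ^ 2
        + S / C * exp (d x ^ 2 / (2 * K))) := fun x => by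
    have h1 := mul_le_mul_of_nonneg_left (hψ x) (sq_nonneg (f x))
    have h2 := gibbs (sq_nonneg (f x)) hb (T * d x ^ 2)
    have h3 := scale_le (T := T) (d := d x) hK hTK (j := 1) one_le_two X.pos
    rw [one_mul] at h3
    have h4 := mul_le_mul_of_nonneg_left h3 hb.le
    linarith
  have i0 := hlog.integrable μ
  have i1 := hsq.integrable μ
  have i2 : Integrable (fun x => exp (d x ^ 2 / (2 * K))) μ :=
    integrable_of_continuous X.bdd ((hd.pow 2).div_const _).rexp
  have i3 : Integrable (fun x => f x ^ 2 * log (f x ^ 2) - (log (S / C) + 1) * f x ^ 2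
      + S / C * exp (d x ^ 2 / (2 * K))) μ := (i0.sub (i1.const_mul _)).add (i2.const_mul _)
  have e2 := integral_mono ((hsq.mul (hφ.fw T)).integrable μ)
    ((i1.const_mul (log (3 * S))).add (i3.const_mul 2⁻¹)) key
  simp only [Pi.add_apply] at e2
  rw [integral_add (i1.const_mul _) (i3.const_mul _), integral_const_mul, integral_const_mul,
    integral_add (f := fun x => f x ^ 2 * log (f x ^ 2) - (log (S / C) + 1) * f x ^ 2)
      (i0.sub (i1.const_mul _)) (i2.const_mul _), integral_sub i0 (i1.const_mul _),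
    integral_const_mul, integral_const_mul, ← hSdef] at e2
  have h5 : S / C * ∫ x, exp (d x ^ 2 / (2 * K)) ∂μ ≤ S := by
    refine (mul_le_mul_of_nonneg_left (hE A hA) hb.le).trans_eq ?_
    field_simp
  rw [log_mul (by norm_num) hS.ne', log_div hS.ne' hC.ne'] at e2
  simp only [entropy, energy, ← hSdef]
  generalize ∫ x, exp (d x ^ 2 / (2 * K)) ∂μ = J at e2 h5
  rw [show 4 / T = 2 * (2 / T) by ring]
  linarith

/-- The observed bounded part is small. -/
theorem part_bdd (X : Ctx μ T) (hK : 0 < K) (hE : ExpInt μ C K) {M : ℝ}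
    (hc : T * K * M ^ 2 * C ≤ 1 / 4096) {f0 u1 : Rn n → ℝ} (hf0 : BM f0) (hu1 : BM u1)
    {s R : ℝ} (hR : R = M * s) (hR0 : 0 ≤ R) (hs2 : ∫ x, f0 x ^ 2 ∂μ = s ^ 2)
    (hbd : ∀ x, |u1 x| ≤ R) (hsm : ∀ x, u1 x ^ 2 ≤ f0 x ^ 2)
    (hmean : |∫ x, u1 x ∂μ| ≤ s / 4) :
    ∫ th, ex μ T th u1 ^ 2 ∂obs μ T ≤ s ^ 2 / 8 := by
  have := X.prob
  have hT := X.pos
  set g1 := fun th => ex μ T th u1
  have hg1 : BM g1 := X.bm_ex hu1
  have hg1R : ∀ th, |g1 th| ≤ R := fun th => by
    have := X.tilt_prob th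
    show |ex μ T th u1| ≤ R
    rw [X.ex_eq th u1]
    simpa using norm_integral_le_of_norm_le_const (μ := tilt μ T th)
      (ae_of_all _ fun x => show ‖u1 x‖ ≤ R from hbd x)
  show ∫ th, g1 th ^ 2 ∂obs μ T ≤ _
  simp only [pow_two (g1 _)]
  rw [X.dual hg1 hu1]
  set b := ∫ x, fw T g1 x ∂μ with hb
  have hb1 : b = ∫ x, u1 x ∂μ := by rw [hb, ← X.integral_obs hg1, X.mix_one hu1]
  have hb2 : b ^ 2 ≤ s ^ 2 / 16 := by
    rw [← sq_abs, hb1]
    exact (pow_le_pow_left₀ (abs_nonneg _) hmean 2).trans_eq (by ring)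
  have hv := var_le_of_expInt X.bdd hK hE (measurable_fw T hg1.1) (abs_fw_le T hg1R)
    (L := 2 * R * Real.sqrt T) (by positivity) (fw_lip hT hg1.1 hg1R)
  have hv2 : (2 * R * Real.sqrt T) ^ 2 * (4 * K * C) ≤ s ^ 2 / 256 := by
    rw [show (2 * R * Real.sqrt T) ^ 2 * (4 * K * C)
        = 16 * s ^ 2 * (Real.sqrt T ^ 2 * K * M ^ 2 * C) by rw [hR]; ring,
      Real.sq_sqrt hT.le]
    nlinarith [mul_le_mul_of_nonneg_left hc (sq_nonneg s)]
  rw [← hb] at hv
  have hψb : BM fun x => fw T g1 x - b := (hg1.fw T).sub (BM.const b)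
  have hm := integral_mono ((hu1.mul hψb).integrable μ)
    (((hf0.sq.integrable μ).const_mul (1 / 32)).add ((hψb.sq.integrable μ).const_mul 8))
    fun x => show u1 x * (fw T g1 x - b) ≤ 1 / 32 * f0 x ^ 2 + 8 * (fw T g1 x - b) ^ 2 by
      nlinarith [sq_nonneg (u1 x - 16 * (fw T g1 x - b)), hsm x]
  simp only [Pi.add_apply, mul_sub] at hm
  rw [integral_add ((hf0.sq.integrable μ).const_mul _) ((hψb.sq.integrable μ).const_mul _),
    integral_const_mul, integral_const_mul, hs2,
    integral_sub ((hu1.mul (hg1.fw T)).integrable μ) ((hu1.integrable μ).mul_const b),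
    integral_mul_const, ← hb1] at hm
  nlinarith

/-- The observed tail part is small. -/
theorem part_tail (X : Ctx μ T) (hK : 0 < K) (hC : 0 < C) (hE : ExpInt μ C K)
    (hTK : 4 * K * T ≤ 1) {M : ℝ} (hM0 : 0 < M) (hMC : 32 * Real.sqrt C ≤ M)
    {f0 u2 : Rn n → ℝ} (hf0 : BM f0) (hu2 : BM u2) {s : ℝ} (hs : 0 < s)
    (hs2 : ∫ x, f0 x ^ 2 ∂μ = s ^ 2) (hsm : ∀ x, |u2 x| ≤ |f0 x|)
    (hu2i : ∫ x, |u2 x| ∂μ ≤ s / M) :
    ∫ th, ex μ T th u2 ^ 2 ∂obs μ T ≤ s ^ 2 / 16 := by
  have := X.prob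
  have hT := X.pos
  set g2 := fun th => ex μ T th u2
  have hg2 : BM g2 := X.bm_ex hu2
  show ∫ th, g2 th ^ 2 ∂obs μ T ≤ _
  rcases (integral_nonneg fun x => sq_nonneg _ : 0 ≤ ∫ th, g2 th ^ 2 ∂obs μ T).eq_or_lt
    with hN | hN
  · rw [← hN]; positivity
  set N := ∫ th, g2 th ^ 2 ∂obs μ T with hNdef
  have hq : BM fun th => g2 th ^ 2 := hg2.sq
  have hA : (2 : ℝ≥0∞)⁻¹ ≤ μ {x | fw T (fun th => g2 th ^ 2) x ≤ 2 * N} :=
    half_of_mean (hq.fw T).1 ((hq.fw T).integrable μ)
      (fun x => integral_nonneg fun z => sq_nonneg _) hN (by rw [← X.integral_obs hq])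
  set A := {x | fw T (fun th => g2 th ^ 2) x ≤ 2 * N}
  have hAc : IsClosed A := isClosed_le (continuous_fw hT hq) continuous_const
  set d := fun x => Metric.infDist x A
  have hd : Continuous d := Metric.continuous_infDist_pt A
  set a := M / (2 * s)
  have ha : 0 < a := by positivity
  have hw : ∀ x, |fw T g2 x| ≤ a * N + 1 / (2 * a) * exp (T * d x ^ 2) := fun x => by
    obtain ⟨y, hy, hxy⟩ := hAc.exists_infDist_eq_dist (nonempty_of_half hA) x
    obtain ⟨hm, B, hB⟩ := hg2
    have h1 := fw_sq hT hm hB x y ha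
    have h2 := fw_sq hT hm.neg (B := B) (fun z => by simpa using hB z) x y ha
    have h3 : fw T (-g2) x = -fw T g2 x := by simp [fw, integral_neg]
    simp only [Pi.neg_apply, neg_sq] at h2
    rw [h3] at h2
    have h4 : a / 2 * fw T (fun th => g2 th ^ 2) y ≤ a / 2 * (2 * N) :=
      mul_le_mul_of_nonneg_left hy (by positivity)
    show _ ≤ _ + _ * exp (T * Metric.infDist x A ^ 2)
    rw [hxy, abs_le]
    constructor <;> linarith
  set l := Real.sqrt C / s
  have hl : 0 < l := by positivity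
  set ed := fun x => exp (d x ^ 2 / (2 * K))
  have ie : Integrable ed μ := integrable_of_continuous X.bdd ((hd.pow 2).div_const _).rexp
  have key : ∀ x, u2 x * fw T g2 x
      ≤ a * N * |u2 x| + 1 / (2 * a) * (l / 2 * f0 x ^ 2 + 1 / (2 * l) * ed x) := fun x => by
    have h1 : u2 x * fw T g2 x ≤ |u2 x| * (a * N + 1 / (2 * a) * exp (T * d x ^ 2)) :=
      (le_abs_self _).trans (by
        rw [abs_mul]; exact mul_le_mul_of_nonneg_left (hw x) (abs_nonneg _))
    have h2 : |u2 x| * exp (T * d x ^ 2) ≤ l / 2 * f0 x ^ 2 + 1 / (2 * l) * ed x := by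
      have h3 := scale_le (T := T) (d := d x) hK hTK (j := 2) le_rfl hT
      rw [show 2 * (T * d x ^ 2) = T * d x ^ 2 + T * d x ^ 2 by ring, exp_add] at h3
      have h4 := mul_le_mul_of_nonneg_right (hsm x) (exp_pos (T * d x ^ 2)).le
      have h5 : 0 ≤ (l * |f0 x| - exp (T * d x ^ 2)) ^ 2 / (2 * l) := by positivity
      have h6 : (l * |f0 x| - exp (T * d x ^ 2)) ^ 2 / (2 * l) = l / 2 * f0 x ^ 2
          + 1 / (2 * l) * (exp (T * d x ^ 2) * exp (T * d x ^ 2))
          - |f0 x| * exp (T * d x ^ 2) := by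
        rw [← sq_abs (f0 x)]
        field_simp
        ring
      have h7 := mul_le_mul_of_nonneg_left h3 (show 0 ≤ 1 / (2 * l) by positivity)
      simp only [ed] at *
      linarith
    have h8 := mul_le_mul_of_nonneg_left h2 (show 0 ≤ 1 / (2 * a) by positivity)
    linarith
  have i1 : Integrable (fun x => l / 2 * f0 x ^ 2 + 1 / (2 * l) * ed x) μ :=
    ((hf0.sq.integrable μ).const_mul (l / 2)).add (ie.const_mul (1 / (2 * l)))
  have hm := integral_mono ((hu2.mul (hg2.fw T)).integrable μ)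
    (((hu2.integrable μ).abs.const_mul (a * N)).add (i1.const_mul (1 / (2 * a)))) key
  simp only [Pi.add_apply] at hm
  have hdual : ∫ x, u2 x * fw T g2 x ∂μ = N := by
    rw [← X.dual hg2 hu2, hNdef]
    simp only [pow_two]
    rfl
  rw [integral_add ((hu2.integrable μ).abs.const_mul _) (i1.const_mul _), integral_const_mul,
    integral_const_mul, hdual] at hm
  rw [integral_add ((hf0.sq.integrable μ).const_mul _) (ie.const_mul _), integral_const_mul,
    integral_const_mul, hs2] at hm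
  have h9 : a * N * ∫ x, |u2 x| ∂μ ≤ N / 2 := by
    refine (mul_le_mul_of_nonneg_left hu2i (by positivity)).trans_eq ?_
    simp only [a]
    field_simp
  have h10 : l / 2 * s ^ 2 + 1 / (2 * l) * ∫ x, ed x ∂μ ≤ Real.sqrt C * s := by
    have := mul_le_mul_of_nonneg_left (hE A hA) (show 0 ≤ 1 / (2 * l) by positivity)
    refine le_trans (add_le_add le_rfl this) (le_of_eq ?_)
    simp only [l]
    field_simp
    rw [Real.sq_sqrt hC.le]
    ring
  have h11 : 1 / (2 * a) * (Real.sqrt C * s) ≤ s ^ 2 / 32 := by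
    rw [show 1 / (2 * a) * (Real.sqrt C * s) = s ^ 2 * Real.sqrt C / M by
      simp only [a]; field_simp, div_le_iff₀ hM0]
    nlinarith [mul_le_mul_of_nonneg_left hMC (sq_nonneg s)]
  have h12 := mul_le_mul_of_nonneg_left h10 (show 0 ≤ 1 / (2 * a) by positivity)
  linarith

/-- Pointwise decomposition of the variance. -/
theorem var_split (X : Ctx μ T) (hpc : PoincareSLC) {f : Rn n → ℝ} (hf : Test f)
    {u1 u2 : Rn n → ℝ} (hu1 : BM u1) (hu2 : BM u2) {c : ℝ}
    (hu : ∀ x, f x - c = u1 x + u2 x) (th : Rn n) :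
    ex μ T th (fun x => (f x - c) ^ 2) ≤ 1 / T * ex μ T th (fun x => ‖fderiv ℝ f x‖ ^ 2)
      + (2 * ex μ T th u1 ^ 2 + 2 * ex μ T th u2 ^ 2) := by
  have := X.tilt_prob th
  have h := hpc n T (tilt μ T th) this X.pos (X.tilt_slc th) f hf
  simp only [vr, energy, ← X.ex_eq th] at h
  have hfb := bm_of_test hf
  have j := (hfb.sub (BM.const c)).integrable (tilt μ T th)
  have j2 := (hfb.sub (BM.const c)).sq.integrable (tilt μ T th)
  set g := ex μ T th fun x => f x - c with hgdef
  have hg : g = ex μ T th f - c := by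
    rw [hgdef, X.ex_eq, integral_sub (hfb.integrable _) (integrable_const c), integral_const,
      probReal_univ, one_smul, ← X.ex_eq]
  have h1 : ex μ T th (fun x => (f x - ex μ T th f) ^ 2)
      = ex μ T th (fun x => (f x - c) ^ 2) - g ^ 2 := by
    rw [show (fun x => (f x - ex μ T th f) ^ 2)
        = fun x => (f x - c) ^ 2 - 2 * g * (f x - c) + g ^ 2 from funext fun x => by rw [hg]; ring,
      X.ex_eq, X.ex_eq th fun x => (f x - c) ^ 2,
      integral_add (f := fun x => (f x - c) ^ 2 - 2 * g * (f x - c))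
        (j2.sub (j.const_mul _)) (integrable_const _),
      integral_sub j2 (j.const_mul _), integral_const_mul, integral_const, probReal_univ,
      one_smul, hgdef, X.ex_eq th fun x => f x - c]
    ring
  have h2 : g = ex μ T th u1 + ex μ T th u2 := by
    rw [hgdef, show (fun x => f x - c) = fun x => u1 x + u2 x from funext hu, X.ex_add hu1 hu2]
  rw [h1, h2] at h
  nlinarith [sq_nonneg (ex μ T th u1 - ex μ T th u2)]

/-- Poincaré inequality. -/
theorem var_bound (X : Ctx μ T) (hpc : PoincareSLC) (hK : 0 < K) (hC : 0 < C)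
    (hE : ExpInt μ C K) (hTK : 4 * K * T ≤ 1) {M : ℝ} (hM : 4 ≤ M) (hMC : 32 * Real.sqrt C ≤ M)
    (hc : T * K * M ^ 2 * C ≤ 1 / 4096) {f : Rn n → ℝ} (hf : Test f) :
    vr μ f ≤ 2 / T * energy μ f := by
  have := X.prob
  have := X.obs_prob
  have hT := X.pos
  have hI : 0 ≤ energy μ f := integral_nonneg fun x => sq_nonneg _
  have hVn : 0 ≤ vr μ f := integral_nonneg fun x => sq_nonneg _
  rcases hVn.eq_or_lt with hV0 | hV0
  · rw [← hV0]; positivity
  have hM0 : 0 < M := by linarith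
  set f0 := fun x => f x - ∫ y, f y ∂μ
  have hf0 : BM f0 := (bm_of_test hf).sub (BM.const _)
  set s := Real.sqrt (vr μ f)
  have hs : 0 < s := Real.sqrt_pos.2 hV0
  have hs2 : ∫ x, f0 x ^ 2 ∂μ = s ^ 2 := (Real.sq_sqrt hV0.le).symm
  have hf0m : ∫ x, f0 x ∂μ = 0 := by
    rw [integral_sub ((bm_of_test hf).integrable μ) (integrable_const _), integral_const, probReal_univ,
      one_smul, sub_self]
  set R := M * s
  have hR : 0 < R := by positivity
  set u1 := fun x => max (-R) (min R (f0 x))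
  set u2 := fun x => f0 x - u1 x
  have hu1 : BM u1 := hf0.cont_comp (G := fun t => max (-R) (min R t)) (by fun_prop)
  have hu2 : BM u2 := hf0.sub hu1
  have hclip : ∀ x, |u1 x| ≤ R ∧ u1 x ^ 2 ≤ f0 x ^ 2 ∧ |u2 x| ≤ |f0 x| ∧
      |u2 x| ≤ f0 x ^ 2 / R := fun x => by
    rw [le_div_iff₀ hR]
    simp only [u2, u1]
    rcases le_total (f0 x) (-R) with h | h
    · rw [min_eq_right (by linarith), max_eq_left h, abs_of_nonpos (by linarith : -R ≤ 0),
        abs_of_nonpos (by linarith : f0 x - -R ≤ 0), abs_of_nonpos (by linarith : f0 x ≤ 0)]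
      refine ⟨by linarith, by nlinarith, by linarith, by nlinarith⟩
    rcases le_total (f0 x) R with h' | h'
    · rw [min_eq_right h', max_eq_right h, sub_self, abs_zero, zero_mul]
      exact ⟨abs_le.2 ⟨h, h'⟩, le_rfl, abs_nonneg _, sq_nonneg _⟩
    · rw [min_eq_left h', max_eq_right (by linarith), abs_of_nonneg hR.le,
        abs_of_nonneg (by linarith : 0 ≤ f0 x - R), abs_of_nonneg (by linarith : 0 ≤ f0 x)]
      refine ⟨le_rfl, by nlinarith, by linarith, by nlinarith⟩
  have hu2i : ∫ x, |u2 x| ∂μ ≤ s / M := by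
    refine (integral_mono (hu2.integrable μ).abs ((hf0.sq.integrable μ).div_const R)
      fun x => (hclip x).2.2.2).trans_eq ?_
    rw [integral_div, hs2]
    simp only [R]
    field_simp
  have hmean : |∫ x, u1 x ∂μ| ≤ s / 4 := by
    have h : ∫ x, u1 x ∂μ = -∫ x, u2 x ∂μ := by
      rw [integral_sub (hf0.integrable μ) (hu1.integrable μ), hf0m]; ring
    rw [h, abs_neg]
    exact abs_integral_le_integral_abs.trans (hu2i.trans (by gcongr))
  have one := part_bdd X hK hE hc hf0 hu1 (R := R) rfl hR.le hs2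
    (fun x => (hclip x).1) (fun x => (hclip x).2.1) hmean
  have two := part_tail X hK hC hE hTK hM0 hMC hf0 hu2 hs hs2 (fun x => (hclip x).2.2.1) hu2i
  have e1 := var_split X hpc hf hu1 hu2 (c := ∫ y, f y ∂μ) fun x => by
    show f0 x = u1 x + (f0 x - u1 x)
    ring
  set g1 := fun th => ex μ T th u1
  set g2 := fun th => ex μ T th u2
  have hg1 : BM g1 := X.bm_ex hu1
  have hg2 : BM g2 := X.bm_ex hu2
  have m1 : Integrable (fun th => 2 * g1 th ^ 2 + 2 * g2 th ^ 2) (obs μ T) :=
    ((hg1.sq.integrable _).const_mul 2).add ((hg2.sq.integrable _).const_mul 2)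
  have m2 := integral_mono ((X.bm_ex hf0.sq).integrable (obs μ T))
    ((((X.bm_ex (bm_grad hf)).integrable (obs μ T)).const_mul (1 / T)).add m1) e1
  simp only [Pi.add_apply] at m2
  rw [X.mix_one hf0.sq, integral_add (((X.bm_ex (bm_grad hf)).integrable _).const_mul _) m1,
    integral_const_mul, X.mix_one (bm_grad hf), hs2] at m2
  rw [integral_add ((hg1.sq.integrable _).const_mul _) ((hg2.sq.integrable _).const_mul _),
    integral_const_mul, integral_const_mul] at m2
  have hsv : vr μ f = s ^ 2 := hs2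
  rw [hsv]
  simp only [energy] at *
  field_simp at m2 ⊢
  nlinarith

end Vale.Agent.P245.M8
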